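import Vale.Agent.P083W.Main

open Filter Topology

namespace Vale.Agent.Results.P083.AUniversalCuntz

open Vale.Agent.P083 Vale.Agent.P083W

/-- Cuntz's theorem: a C*-algebra with two isometries `s₁`, `s₂` as above is universal iff it is
nonzero and generated by them; `O₂` is simple, separable and unique up to *-isomorphism. -/
def CuntzTheorem : Prop :=
  ∀ (O : Type) [CStarAlgebra O] (s₁ s₂ : O),
    (IsO2 s₁ s₂ ↔ Nontrivial O ∧ CuntzTwo s₁ s₂) ∧
    (IsO2 s₁ s₂ → IsSimpleRing O ∧ TopologicalSpace.SeparableSpace O ∧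
      ∀ (O' : Type) [CStarAlgebra O'] (t₁ t₂ : O'), IsO2 t₁ t₂ →
        ∃ e : O ≃⋆ₐ[ℂ] O', e s₁ = t₁ ∧ e s₂ = t₂)

/-- The quotient `B^ω` is a C*-algebra for the norm `lim_ω ‖b_n‖`. -/
def LimitNorm (ω : Ultrafilter ℕ) (B : Type) [CStarAlgebra B] [Nontrivial B] : Prop :=
  ∃ (Q : Type) (_ : CStarAlgebra Q) (e : UPow ω B ≃⋆ₐ[ℂ] Q), ∀ x : Linf B,
    Tendsto (fun n => ‖x n‖) ω (𝓝 ‖e (Ideal.Quotient.mk (Iω ω B) x)‖)

/-- Every *-homomorphism (unital or not) from `A` to `B^ω` is zero. -/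
def OnlyZero (ω : Ultrafilter ℕ) (B : Type) [CStarAlgebra B] [Nontrivial B] (A : Type)
    [CStarAlgebra A] : Prop :=
  ∀ (φ : A →⋆ₙₐ[ℂ] UPow ω B) (a : A), φ a = 0

/-- **Kirchberg's embedding problem, with `O₂` the universal C*-algebra and `O₂^ω` the quotient
`ℓ^∞(ℕ, O₂) / I_ω(O₂)`.**
(1) The universal unital C*-algebra `O₂` on two isometries with `s₁ s₁* + s₂ s₂* = 1` exists.
(2) Cuntz's theorem.
(3) The quotient `B^ω` is a C*-algebra for the norm `lim_ω ‖b_n‖` and contains `B` unitally.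
(4) For every free ultrafilter it is false that every separable unital C*-algebra embeds unitally
into `O₂^ω`.
(5) One separable unital C*-algebra `A ≠ 0` is a counterexample for all ultrafilters, also without
unit preservation: every *-homomorphism `A → O₂^ω` is zero. -/
theorem result :
    (∃ (O : Type) (_ : CStarAlgebra O) (s₁ s₂ : O), IsO2 s₁ s₂) ∧
    CuntzTheorem ∧
    (∀ (ω : Ultrafilter ℕ) (B : Type) [CStarAlgebra B] [Nontrivial B],
      LimitNorm ω B ∧ EmbedsUnitally ω B B) ∧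
    (∀ (O : Type) [CStarAlgebra O] [Nontrivial O] (s₁ s₂ : O), IsO2 s₁ s₂ →
      ∀ ω : Ultrafilter ℕ, (ω : Filter ℕ) ≤ cofinite →
        ¬ ∀ (A : Type) [CStarAlgebra A], TopologicalSpace.SeparableSpace A →
          EmbedsUnitally ω O A) ∧
    ∃ (A : Type) (_ : CStarAlgebra A), Nontrivial A ∧ TopologicalSpace.SeparableSpace A ∧
      ∀ (O : Type) [CStarAlgebra O] [Nontrivial O] (s₁ s₂ : O), IsO2 s₁ s₂ →
        ∀ ω : Ultrafilter ℕ, ¬ EmbedsUnitally ω O A ∧ ¬ Embeds ω O A ∧ OnlyZero ω O A := by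
  refine ⟨exists_O2, fun O _ s₁ s₂ => ⟨isO2_iff s₁ s₂, fun h => ?_⟩,
    fun ω B _ _ => ⟨upow_cstar ω B, embeds_self ω B⟩, fun O _ _ s₁ s₂ h ω _ hall => ?_, main⟩
  · obtain ⟨_, hc⟩ := of_isO2 h
    exact ⟨simple hc, separable hc, fun O' _ t₁ t₂ h' => unique_iso h h'⟩
  · obtain ⟨A, _, -, hA, hno⟩ := main
    exact (hno O s₁ s₂ h ω).1 (hall A hA)

end Vale.Agent.Results.P083.AUniversalCuntz
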